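import Mathlib

namespace Vale.Agent.Lib.P160

open Finset

/-- Second Bonferroni inequality, in doubled form: for a finite family of finite sets,
`2 * Σ |E a| ≤ 2 * |⋃ E a| + Σ_{a ≠ b} |E a ∩ E b|` (ordered pairs). -/
theorem bonferroni_two {Ω I : Type*} [DecidableEq Ω] [DecidableEq I] (s : Finset I)
    (E : I → Finset Ω) :
    2 * ∑ a ∈ s, (E a).card
      ≤ 2 * (s.biUnion E).card + ∑ p ∈ s.offDiag, (E p.1 ∩ E p.2).card := by
  set U := s.biUnion E with hU
  have h1 : ∀ a ∈ s, (E a).card = ∑ x ∈ U, if x ∈ E a then 1 else 0 := by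
    intro a ha
    rw [← Finset.card_filter]
    congr 1
    ext x
    simp only [Finset.mem_filter, hU, Finset.mem_biUnion]
    constructor
    · intro hx; exact ⟨⟨a, ha, hx⟩, hx⟩
    · intro hx; exact hx.2
  have h2 : ∀ p ∈ s.offDiag, (E p.1 ∩ E p.2).card
      = ∑ x ∈ U, if (x ∈ E p.1 ∧ x ∈ E p.2) then 1 else 0 := by
    intro p hp
    rw [← Finset.card_filter]
    congr 1
    ext x
    simp only [Finset.mem_filter, hU, Finset.mem_biUnion, Finset.mem_inter]
    constructor
    · intro hx; exact ⟨⟨p.1, (Finset.mem_offDiag.mp hp).1, hx.1⟩, hx⟩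
    · intro hx; exact hx.2
  rw [Finset.sum_congr rfl h1, Finset.sum_congr rfl h2, Finset.sum_comm,
    Finset.sum_comm (s := s.offDiag)]
  have h3 : (U.card) = ∑ x ∈ U, 1 := by simp
  rw [h3, Finset.mul_sum, Finset.mul_sum, ← Finset.sum_add_distrib]
  apply Finset.sum_le_sum
  intro x hx
  rw [← Finset.card_filter, ← Finset.card_filter]
  have h4 : s.offDiag.filter (fun p => x ∈ E p.1 ∧ x ∈ E p.2)
      = (s.filter (fun a => x ∈ E a)).offDiag := by
    ext p
    simp only [Finset.mem_filter, Finset.mem_offDiag]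
    tauto
  rw [h4, Finset.offDiag_card]
  have h5 : 1 ≤ (s.filter (fun a => x ∈ E a)).card := by
    rw [Finset.one_le_card]
    obtain ⟨a, ha, hxa⟩ := Finset.mem_biUnion.mp hx
    exact ⟨a, Finset.mem_filter.mpr ⟨ha, hxa⟩⟩
  generalize (s.filter (fun a => x ∈ E a)).card = d at h5
  obtain ⟨e, rfl⟩ : ∃ e, d = e + 1 := ⟨d - 1, by omega⟩
  have : (e + 1) * (e + 1) - (e + 1) = e * e + e := by
    have : (e + 1) * (e + 1) = e * e + e + (e + 1) := by ring
    omega
  rw [this]
  nlinarith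
end Vale.Agent.Lib.P160
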