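import Vale.Agent.Lib.P160.Sign

namespace Vale.Agent.Lib.P160

open Finset

/-- The number of pairs `i < j` in `Fin n`, doubled, is `n * n - n`. -/
theorem two_mul_card_lt (n : ℕ) :
    2 * (univ.filter (fun p : Fin n × Fin n => p.1 < p.2)).card = n * n - n := by
  have h1 : (univ.filter (fun p : Fin n × Fin n => p.2 < p.1)).card
      = (univ.filter (fun p : Fin n × Fin n => p.1 < p.2)).card := by
    refine Finset.card_nbij' (fun p => (p.2, p.1)) (fun p => (p.2, p.1)) ?_ ?_ ?_ ?_
    · intro p hp; simpa using hp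
    · intro p hp; simpa using hp
    · intro p _; rfl
    · intro p _; rfl
  have h2 : (univ : Finset (Fin n)).offDiag
      = univ.filter (fun p : Fin n × Fin n => p.1 < p.2)
        ∪ univ.filter (fun p : Fin n × Fin n => p.2 < p.1) := by
    ext p
    simp only [mem_offDiag, mem_univ, true_and, mem_union, mem_filter]
    exact lt_or_lt_iff_ne.symm
  have h3 : Disjoint (univ.filter (fun p : Fin n × Fin n => p.1 < p.2))
      (univ.filter (fun p : Fin n × Fin n => p.2 < p.1)) := by
    rw [Finset.disjoint_filter]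
    intro p _ h1 h2
    exact absurd h1 (lt_asymm h2)
  have h4 := Finset.offDiag_card (univ : Finset (Fin n))
  rw [h2, Finset.card_union_of_disjoint h3, h1] at h4
  simp only [Finset.card_univ, Fintype.card_fin] at h4
  omega

/-- The index set of the events: pairs `i < j` together with a sign. -/
def evIndex (n : ℕ) : Finset ((Fin n × Fin n) × ℤˣ) :=
  (univ.filter (fun p : Fin n × Fin n => p.1 < p.2)) ×ˢ (univ : Finset ℤˣ)

theorem card_evIndex (n : ℕ) : (evIndex n).card = n * n - n := by
  rw [evIndex, Finset.card_product, Finset.card_univ, Fintype.card_units_int, mul_comm,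
    two_mul_card_lt]

/-- The event attached to an index. -/
def ev (n : ℕ) (a : (Fin n × Fin n) × ℤˣ) : Finset (Sym2 (Fin n) → ℤˣ) :=
  rowEvent a.1.1 a.1.2 a.2

theorem card_ev (n : ℕ) (a : (Fin n × Fin n) × ℤˣ) (ha : a ∈ evIndex n) :
    (ev n a).card = 2 ^ n.choose 2 := by
  have hlt : a.1.1 < a.1.2 := by
    have := (Finset.mem_product.mp ha).1
    simpa using this
  rw [ev, card_rowEvent _ _ (ne_of_lt hlt), Fintype.card_fin]

theorem card_ev_inter_le (n : ℕ) (a b : (Fin n × Fin n) × ℤˣ) (ha : a ∈ evIndex n)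
    (hb : b ∈ evIndex n) (hab : a ≠ b) :
    (ev n a ∩ ev n b).card ≤ 2 ^ (n - 1).choose 2 := by
  obtain ⟨⟨i, j⟩, s⟩ := a
  obtain ⟨⟨k, l⟩, t⟩ := b
  have hij : i < j := by
    have := (Finset.mem_product.mp ha).1
    simpa using this
  have hkl : k < l := by
    have := (Finset.mem_product.mp hb).1
    simpa using this
  have hcard : Fintype.card (Fin n) - 1 = n - 1 := by rw [Fintype.card_fin]
  rw [← hcard]
  simp only [ev]
  by_cases hjl : j = l
  · by_cases hik : i = k
    · -- same pair, different signs: empty intersection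
      have hst : s ≠ t := by
        intro h
        apply hab
        rw [hjl, hik, h]
      have hempty : rowEvent i j s ∩ rowEvent k l t = ∅ := by
        rw [Finset.eq_empty_iff_forall_notMem]
        intro f hf
        rw [Finset.mem_inter, mem_rowEvent, mem_rowEvent] at hf
        have h1 := hf.1 i
        have h2 := hf.2 i
        rw [← hjl, ← hik] at h2
        rw [h1] at h2
        exact hst (mul_right_cancel h2)
      rw [hempty]
      simp
    · refine card_inter_le i j (ne_of_lt hij) s i k (ne_of_lt hij) ?_ hik (t * s) _ ?_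
      · rw [hjl]; exact ne_of_lt hkl
      · intro f hf
        rw [Finset.mem_inter] at hf
        refine ⟨hf.1, ?_⟩
        intro m
        have h1 := mem_rowEvent.mp hf.1 m
        have h2 := mem_rowEvent.mp hf.2 m
        rw [← hjl, h1] at h2
        rw [mul_assoc, h2, ← mul_assoc, unit_mul_self, one_mul]
  · by_cases hjk : j = k
    · have hli : i ≠ l := ne_of_lt (lt_trans hij (hjk ▸ hkl))
      refine card_inter_le i j (ne_of_lt hij) s i l (ne_of_lt hij) (fun h => hjl h.symm) hli
        (t * s) _ ?_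
      intro f hf
      rw [Finset.mem_inter] at hf
      refine ⟨hf.1, ?_⟩
      intro m
      have h1 := mem_rowEvent.mp hf.1 m
      have h2 := mem_rowEvent.mp hf.2 m
      rw [← hjk, h1] at h2
      rw [h2, mul_assoc]
    · refine card_inter_le i j (ne_of_lt hij) s k l (fun h => hjk h.symm) (fun h => hjl h.symm)
        (ne_of_lt hkl) t _ ?_
      intro f hf
      rw [Finset.mem_inter] at hf
      exact ⟨hf.1, mem_rowEvent.mp hf.2⟩

/-- Bonferroni lower bound for the number of configurations with two proportional rows. -/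
theorem union_lower (m : ℕ) :
    2 * ((m + 2) * (m + 2) - (m + 2)) * 2 ^ (m + 2).choose 2
      ≤ 2 * ((evIndex (m + 2)).biUnion (ev (m + 2))).card
        + (((m + 2) * (m + 2) - (m + 2)) * ((m + 2) * (m + 2) - (m + 2))
            - ((m + 2) * (m + 2) - (m + 2))) * 2 ^ (m + 1).choose 2 := by
  have hb := bonferroni_two (evIndex (m + 2)) (ev (m + 2))
  have h1 : ∑ a ∈ evIndex (m + 2), (ev (m + 2) a).card
      = ((m + 2) * (m + 2) - (m + 2)) * 2 ^ (m + 2).choose 2 := by
    rw [Finset.sum_congr rfl (fun a ha => card_ev (m + 2) a ha), Finset.sum_const,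
      card_evIndex, smul_eq_mul]
  have h2 : ∑ p ∈ (evIndex (m + 2)).offDiag, (ev (m + 2) p.1 ∩ ev (m + 2) p.2).card
      ≤ (((m + 2) * (m + 2) - (m + 2)) * ((m + 2) * (m + 2) - (m + 2))
            - ((m + 2) * (m + 2) - (m + 2))) * 2 ^ (m + 1).choose 2 := by
    have h3 : ∀ p ∈ (evIndex (m + 2)).offDiag,
        (ev (m + 2) p.1 ∩ ev (m + 2) p.2).card ≤ 2 ^ (m + 1).choose 2 := by
      intro p hp
      rw [Finset.mem_offDiag] at hp
      exact card_ev_inter_le (m + 2) p.1 p.2 hp.1 hp.2.1 hp.2.2
    have h4 := Finset.sum_le_card_nsmul _ _ _ h3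
    rw [Finset.offDiag_card, card_evIndex, smul_eq_mul] at h4
    exact h4
  rw [h1] at hb
  calc 2 * ((m + 2) * (m + 2) - (m + 2)) * 2 ^ (m + 2).choose 2
      = 2 * (((m + 2) * (m + 2) - (m + 2)) * 2 ^ (m + 2).choose 2) := by ring
    _ ≤ _ := hb
    _ ≤ _ := Nat.add_le_add_left h2 _

end Vale.Agent.Lib.P160
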