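import Mathlib

/-!
Symmetric random sign matrices: the matrix `A_n` with independent uniform `±1` entries on and
above the diagonal is uniformly distributed over the set of all symmetric `n × n` matrices with
entries `±1` (there are `2 ^ (n (n + 1) / 2)` of them), so `q_n = Pr(det A_n = 0)` is the
proportion of singular matrices in that set.
-/

namespace Vale.Agent.Lib.P160

/-- The symmetric `n × n` matrices all of whose entries are `1` or `-1`. -/
def symSign (n : ℕ) : Set (Matrix (Fin n) (Fin n) ℤ) :=
  {A | A.IsSymm ∧ ∀ i j, A i j = 1 ∨ A i j = -1}

/-- The singular symmetric sign matrices. -/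
def symSignSing (n : ℕ) : Set (Matrix (Fin n) (Fin n) ℤ) :=
  {A | A ∈ symSign n ∧ A.det = 0}

/-- The singularity probability `q_n` of a uniformly random symmetric sign matrix. -/
noncomputable def singProb (n : ℕ) : ℝ :=
  ((symSignSing n).ncard : ℝ) / ((symSign n).ncard : ℝ)

end Vale.Agent.Lib.P160
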