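import Vale.Agent.Lib.P160.Defs
import Vale.Agent.Lib.P160.Count

namespace Vale.Agent.Lib.P160

open Finset

/-- The integer matrix of a sign configuration. -/
def toMat (n : ℕ) (f : Sym2 (Fin n) → ℤˣ) : Matrix (Fin n) (Fin n) ℤ :=
  fun i j => ((f s(i, j) : ℤˣ) : ℤ)

theorem toMat_injective (n : ℕ) : Function.Injective (toMat n) := by
  intro f g h
  funext z
  refine Sym2.inductionOn z ?_
  intro a b
  have := congrFun (congrFun h a) b
  exact Units.val_injective this

theorem toMat_mem (n : ℕ) (f : Sym2 (Fin n) → ℤˣ) : toMat n f ∈ symSign n := by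
  refine ⟨?_, ?_⟩
  · ext i j
    show ((f s(j, i) : ℤˣ) : ℤ) = ((f s(i, j) : ℤˣ) : ℤ)
    rw [Sym2.eq_swap]
  · intro i j
    show ((f s(i, j) : ℤˣ) : ℤ) = 1 ∨ ((f s(i, j) : ℤˣ) : ℤ) = -1
    rcases Int.units_eq_one_or (f s(i, j)) with h | h <;> simp [h]

theorem range_toMat (n : ℕ) : Set.range (toMat n) = symSign n := by
  ext A
  constructor
  · rintro ⟨f, rfl⟩
    exact toMat_mem n f
  · rintro ⟨hs, he⟩
    refine ⟨Sym2.lift ⟨fun i j => if A i j = 1 then (1 : ℤˣ) else -1, ?_⟩, ?_⟩
    · intro i j
      have : A i j = A j i := by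
        have := congrFun (congrFun hs j) i
        simpa [Matrix.transpose_apply] using this
      show (if A i j = 1 then (1 : ℤˣ) else -1) = (if A j i = 1 then (1 : ℤˣ) else -1)
      rw [this]
    · ext i j
      show (((if A i j = 1 then (1 : ℤˣ) else -1) : ℤˣ) : ℤ) = A i j
      rcases he i j with h | h
      · rw [if_pos h, h]; rfl
      · rw [if_neg (by rw [h]; decide), h]; rfl

theorem ncard_symSign (n : ℕ) : (symSign n).ncard = 2 ^ (n + 1).choose 2 := by
  rw [← range_toMat, ← Set.image_univ, Set.ncard_image_of_injective _ (toMat_injective n),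
    Set.ncard_univ, Nat.card_eq_fintype_card, card_config, Fintype.card_fin]

theorem finite_symSign (n : ℕ) : (symSign n).Finite := by
  rw [← range_toMat]
  exact Set.finite_range _

/-- Proportional rows force a vanishing determinant. -/
theorem det_toMat_eq_zero (n : ℕ) {i j : Fin n} (hij : i ≠ j) {s : ℤˣ}
    {f : Sym2 (Fin n) → ℤˣ} (hf : f ∈ rowEvent i j s) : (toMat n f).det = 0 := by
  rw [mem_rowEvent] at hf
  have h1 : toMat n f = Matrix.updateRow (toMat n f) j ((s : ℤ) • toMat n f i) := by
    ext a b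
    by_cases ha : a = j
    · subst ha
      rw [Matrix.updateRow_self]
      show ((f s(a, b) : ℤˣ) : ℤ) = (s : ℤ) * ((f s(i, b) : ℤˣ) : ℤ)
      rw [hf b]
      simp
    · rw [Matrix.updateRow_ne ha]
  rw [h1, Matrix.det_updateRow_smul]
  have h2 : (Matrix.updateRow (toMat n f) j (toMat n f i)).det = 0 := by
    apply Matrix.det_zero_of_row_eq hij
    rw [Matrix.updateRow_self, Matrix.updateRow_ne hij]
  rw [h2, mul_zero]

/-- The singular symmetric sign matrices are at least as many as the configurations with two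
proportional rows. -/
theorem union_le_sing (n : ℕ) :
    ((evIndex n).biUnion (ev n)).card ≤ (symSignSing n).ncard := by
  have hsub : toMat n '' (((evIndex n).biUnion (ev n) : Finset _) : Set (Sym2 (Fin n) → ℤˣ))
      ⊆ symSignSing n := by
    rintro _ ⟨f, hf, rfl⟩
    rw [Finset.mem_coe, Finset.mem_biUnion] at hf
    obtain ⟨a, ha, hfa⟩ := hf
    have hlt : a.1.1 < a.1.2 := by
      have := (Finset.mem_product.mp ha).1
      simpa using this
    exact ⟨toMat_mem n f, det_toMat_eq_zero n (ne_of_lt hlt) hfa⟩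
  have hfin : (symSignSing n).Finite := (finite_symSign n).subset (fun A hA => hA.1)
  have h1 := Set.ncard_le_ncard hsub hfin
  rw [Set.ncard_image_of_injective _ (toMat_injective n), Set.ncard_coe_finset] at h1
  exact h1

end Vale.Agent.Lib.P160
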