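import Vale.Agent.Lib.P160.Bonferroni

namespace Vale.Agent.Lib.P160

open Finset

variable {ι : Type*} [Fintype ι] [DecidableEq ι]

set_option linter.unusedSectionVars false

/-- Sign configurations `f : Sym2 ι → ℤˣ` encode symmetric sign matrices `A i j = f s(i, j)`.
`rowEvent i j s` is the event that row `j` equals `s` times row `i`. -/
def rowEvent (i j : ι) (s : ℤˣ) : Finset (Sym2 ι → ℤˣ) :=
  Finset.univ.filter (fun f => ∀ k, f s(j, k) = s * f s(i, k))

theorem mem_rowEvent {i j : ι} {s : ℤˣ} {f : Sym2 ι → ℤˣ} :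
    f ∈ rowEvent i j s ↔ ∀ k, f s(j, k) = s * f s(i, k) := by
  simp [rowEvent]

/-- Forget the row and column `j`. -/
def resDel (j : ι) (f : Sym2 ι → ℤˣ) : Sym2 {v : ι // v ≠ j} → ℤˣ :=
  fun z => f (z.map Subtype.val)

/-- Rebuild row and column `j` as `s` times row `i`. -/
def extDel (i j : ι) (hij : i ≠ j) (s : ℤˣ) (g : Sym2 {v : ι // v ≠ j} → ℤˣ) : Sym2 ι → ℤˣ :=
  Sym2.lift ⟨fun a b =>
    if ha : a = j then
      (if hb : b = j then g s(⟨i, hij⟩, ⟨i, hij⟩) else s * g s(⟨i, hij⟩, ⟨b, hb⟩))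
    else
      (if hb : b = j then s * g s(⟨i, hij⟩, ⟨a, ha⟩) else g s(⟨a, ha⟩, ⟨b, hb⟩)), by
    intro a b
    by_cases ha : a = j <;> by_cases hb : b = j
    · simp [ha, hb]
    · simp [ha, hb]
    · simp [ha, hb]
    · simp only [dif_neg ha, dif_neg hb]
      rw [Sym2.eq_swap]⟩

theorem extDel_apply (i j : ι) (hij : i ≠ j) (s : ℤˣ) (g : Sym2 {v : ι // v ≠ j} → ℤˣ)
    (a b : ι) :
    extDel i j hij s g s(a, b) =
      if ha : a = j then
        (if hb : b = j then g s(⟨i, hij⟩, ⟨i, hij⟩) else s * g s(⟨i, hij⟩, ⟨b, hb⟩))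
      else
        (if hb : b = j then s * g s(⟨i, hij⟩, ⟨a, ha⟩) else g s(⟨a, ha⟩, ⟨b, hb⟩)) := rfl

theorem unit_mul_self (s : ℤˣ) : s * s = 1 := by
  rcases Int.units_eq_one_or s with h | h <;> simp [h]

theorem extDel_mem (i j : ι) (hij : i ≠ j) (s : ℤˣ) (g : Sym2 {v : ι // v ≠ j} → ℤˣ) :
    extDel i j hij s g ∈ rowEvent i j s := by
  rw [mem_rowEvent]
  intro k
  rw [extDel_apply, extDel_apply, dif_pos rfl, dif_neg hij]
  by_cases hk : k = j
  · rw [dif_pos hk, dif_pos hk, ← mul_assoc, unit_mul_self, one_mul]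
  · rw [dif_neg hk, dif_neg hk]

theorem resDel_extDel (i j : ι) (hij : i ≠ j) (s : ℤˣ) (g : Sym2 {v : ι // v ≠ j} → ℤˣ) :
    resDel j (extDel i j hij s g) = g := by
  funext z
  refine Sym2.inductionOn z ?_
  rintro ⟨a, ha⟩ ⟨b, hb⟩
  simp only [resDel, Sym2.map_mk]
  rw [extDel_apply, dif_neg ha, dif_neg hb]

theorem extDel_resDel (i j : ι) (hij : i ≠ j) (s : ℤˣ) {f : Sym2 ι → ℤˣ}
    (hf : f ∈ rowEvent i j s) : extDel i j hij s (resDel j f) = f := by
  rw [mem_rowEvent] at hf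
  funext z
  refine Sym2.inductionOn z ?_
  intro a b
  rw [extDel_apply]
  by_cases ha : a = j <;> by_cases hb : b = j
  · rw [dif_pos ha, dif_pos hb, ha, hb]
    simp only [resDel, Sym2.map_mk]
    have h1 := hf j
    have h2 := hf i
    rw [h1, Sym2.eq_swap (a := i) (b := j), h2, ← mul_assoc, unit_mul_self, one_mul]
  · rw [dif_pos ha, dif_neg hb, ha]
    simp only [resDel, Sym2.map_mk]
    exact (hf b).symm
  · rw [dif_neg ha, dif_pos hb, hb]
    simp only [resDel, Sym2.map_mk]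
    rw [Sym2.eq_swap (a := a)]
    exact (hf a).symm
  · rw [dif_neg ha, dif_neg hb]
    simp only [resDel, Sym2.map_mk]

theorem card_config (κ : Type*) [Fintype κ] [DecidableEq κ] :
    Fintype.card (Sym2 κ → ℤˣ) = 2 ^ (Fintype.card κ + 1).choose 2 := by
  rw [Fintype.card_fun, Fintype.card_units_int, Sym2.card]

/-- The event `row j = s * row i` consists of exactly `2 ^ C(|ι|, 2)` configurations. -/
theorem card_rowEvent (i j : ι) (hij : i ≠ j) (s : ℤˣ) :
    (rowEvent i j s).card = 2 ^ (Fintype.card ι).choose 2 := by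
  have h1 : (rowEvent i j s).card = Fintype.card (Sym2 {v : ι // v ≠ j} → ℤˣ) := by
    rw [← Finset.card_univ]
    refine Finset.card_nbij' (resDel j) (extDel i j hij s) ?_ ?_ ?_ ?_
    · intro f _; exact Finset.mem_coe.mpr (Finset.mem_univ _)
    · intro g _; exact Finset.mem_coe.mpr (extDel_mem i j hij s g)
    · intro f hf; exact extDel_resDel i j hij s (Finset.mem_coe.mp hf)
    · intro g _; exact resDel_extDel i j hij s g
  rw [h1, card_config]
  have h2 : Fintype.card {v : ι // v ≠ j} = Fintype.card ι - 1 := by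
    rw [Fintype.card_subtype_compl, Fintype.card_subtype_eq]
  have h3 : 1 ≤ Fintype.card ι := Fintype.card_pos_iff.mpr ⟨i⟩
  rw [h2, Nat.sub_add_cancel h3]

/-- Two different proportionality events (after deleting `j`) meet in at most
`2 ^ C(|ι| - 1, 2)` configurations. -/
theorem card_inter_le (i j : ι) (hij : i ≠ j) (s : ℤˣ) (i' l' : ι) (hi' : i' ≠ j) (hl' : l' ≠ j)
    (hil : i' ≠ l') (s' : ℤˣ) (F : Finset (Sym2 ι → ℤˣ))
    (hF : ∀ f ∈ F, f ∈ rowEvent i j s ∧ ∀ k, f s(l', k) = s' * f s(i', k)) :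
    F.card ≤ 2 ^ (Fintype.card ι - 1).choose 2 := by
  have h1 : F.card ≤ (rowEvent (⟨i', hi'⟩ : {v : ι // v ≠ j}) ⟨l', hl'⟩ s').card := by
    refine Finset.card_le_card_of_injOn (resDel j) ?_ ?_
    · intro f hf
      rw [Finset.mem_coe, mem_rowEvent]
      rintro ⟨k, hk⟩
      simp only [resDel, Sym2.map_mk]
      exact (hF f (Finset.mem_coe.mp hf)).2 k
    · intro f hf g hg hfg
      have hf' := (hF f (Finset.mem_coe.mp hf)).1
      have hg' := (hF g (Finset.mem_coe.mp hg)).1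
      rw [← extDel_resDel i j hij s hf', ← extDel_resDel i j hij s hg', hfg]
  have h2 : (⟨i', hi'⟩ : {v : ι // v ≠ j}) ≠ ⟨l', hl'⟩ := by
    intro h; exact hil (Subtype.ext_iff.mp h)
  rw [card_rowEvent _ _ h2] at h1
  have h3 : Fintype.card {v : ι // v ≠ j} = Fintype.card ι - 1 := by
    rw [Fintype.card_subtype_compl, Fintype.card_subtype_eq]
  rw [h3] at h1
  exact h1

end Vale.Agent.Lib.P160
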